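import Crest.Agent.N76.MK.Trans

/-! # Row 76: multilinear Kakeya in `ℝ^(k+1)` with `R^ε` loss and local transversality (helper96)

`MK.mk`: lines `p l + t • u l`; at each point `x a` the lines of `A a j ⊆ s j` pass within `κ`,
and every choice of one line from each `A a j` has determinant at least `θ`. -/

set_option autoImplicit false

namespace Crest.Agent.N76.MK

open Finset Function

lemma rpow_sum_le {α : Type*} (s : Finset α) (f : α → ℝ) (hf : ∀ a ∈ s, 0 ≤ f a) {p : ℝ}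
    (hp : 0 < p) (hp1 : p ≤ 1) : (∑ a ∈ s, f a) ^ p ≤ ∑ a ∈ s, f a ^ p := by
  classical
  induction s using Finset.induction_on with
  | empty => simp [Real.zero_rpow hp.ne']
  | insert a s ha ih =>
    rw [Finset.sum_insert ha, Finset.sum_insert ha]
    have h1 : ∀ b ∈ s, 0 ≤ f b := fun b hb => hf b (Finset.mem_insert_of_mem hb)
    refine (Real.rpow_add_le_add_rpow (hf a (Finset.mem_insert_self a s))
      (Finset.sum_nonneg h1) hp.le hp1).trans ?_
    exact add_le_add le_rfl (ih h1)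

variable {D : Type*} [Fintype D] [DecidableEq D]

/-- index of the cap of size `η` -/
noncomputable def cix (η : ℝ) (v : D → ℝ) : D → ℤ := fun i => ⌊v i / η⌋

omit [Fintype D] [DecidableEq D] in
lemma cix_close {η : ℝ} (hη : 0 < η) {v v' : D → ℝ} (h : cix η v = cix η v') (i : D) :
    |v i - v' i| ≤ η := by
  have h1 : ⌊v i / η⌋ = ⌊v' i / η⌋ := congrFun h i
  have h2 := Int.abs_sub_lt_one_of_floor_eq_floor h1
  rw [← sub_div, abs_div, abs_of_pos hη, div_lt_one hη] at h2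
  exact h2.le

lemma cix_mem {η : ℝ} (hη : 0 < η) {v : D → ℝ} (hv : ∀ i, |v i| ≤ 1) :
    cix η v ∈ box D (1 / η) := by
  refine mem_box fun i => ?_
  have h1 : |v i / η| ≤ 1 / η := by
    rw [abs_div, abs_of_pos hη]
    exact div_le_div_of_nonneg_right (hv i) hη.le
  have h2 := Int.floor_le (v i / η)
  have h3 := Int.lt_floor_add_one (v i / η)
  simp only [cix]
  rw [abs_le] at h1
  rw [abs_lt]
  constructor <;> linarith [h1.1, h1.2]

/-- the line through `p` with direction `u` -/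
def line (p u : D → ℝ) : Set (D → ℝ) := {y | ∃ t : ℝ, y = fun i => p i + t * u i}

/-- one tuple of caps -/
lemma tuple {k : ℕ} (hk : Fintype.card D = k + 1) (hk1 : 1 ≤ k) {ι α : Type*}
    {N : ℕ} (hN : 1 ≤ N) (m : ℕ) (s : D → Finset ι) (w : ι → ℝ) (p u : ι → D → ℝ)
    (hw : ∀ j, ∀ l ∈ s j, 0 ≤ w l) (e : D → D → ℝ) (he : ∀ j i, |e j i| ≤ 1)
    {θ κ R M : ℝ} (hθ : 0 < θ) (hθ1 : θ ≤ 1)
    (hdet : θ ≤ |(Matrix.of fun i j => e j i).det|)
    (hs : ∀ j, ∀ l ∈ s j, ∀ i, |u l i - e j i| ≤ θ / (2 * N * ((k + 1) * (k + 1).factorial)))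
    (hκ : 1 ≤ κ) (hR : 1 ≤ R) (hRm : R < (N : ℝ) ^ m)
    (X : Finset α) (x : α → D → ℝ) (hX : ∀ a ∈ X, ∀ i, |x a i| ≤ R) (hM : Mult X x M)
    (A : α → D → Finset ι) (hA : ∀ a ∈ X, ∀ j, A a j ⊆ s j)
    (hnear : ∀ a ∈ X, ∀ j, ∀ l ∈ A a j, ∃ t : ℝ, ∀ i, |x a i - (p l i + t * u l i)| ≤ κ) :
    ∑ a ∈ X, ∏ j, (∑ l ∈ A a j, w l) ^ ((1 : ℝ) / k) ≤
      M * (10 * (k + 1) * ((k + 1) * (k + 1).factorial / θ) * κ) ^ (k + 1) *
        (2 ^ (k + 1) * (11 ^ (k + 1)) ^ m * ∏ j, (∑ l ∈ s j, w l) ^ ((1 : ℝ) / k)) := by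
  set Bm : Matrix D D ℝ := Matrix.of fun i j => e j i with hBm
  have hB1 : ∀ i j, |Bm i j| ≤ 1 := fun i j => he j i
  have hunit : IsUnit Bm.det := by
    rw [isUnit_iff_ne_zero]
    intro h0
    rw [h0, abs_zero] at hdet
    linarith
  have hF : (1 : ℝ) ≤ (k + 1).factorial := by exact_mod_cast Nat.factorial_pos _
  have hk0 : (1 : ℝ) ≤ (k : ℝ) + 1 := by linarith [Nat.cast_nonneg (α := ℝ) k]
  have hN1 : (1 : ℝ) ≤ N := by exact_mod_cast hN
  set L : ℝ := (k + 1) * (k + 1).factorial / θ with hL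
  have hL1 : 1 ≤ L := by
    rw [hL, le_div_iff₀ hθ]; nlinarith
  have hsub : ∀ (x y : D → ℝ) i, Bm⁻¹.mulVec x i - Bm⁻¹.mulVec y i =
      Bm⁻¹.mulVec (fun i => x i - y i) i := by
    intro x y i
    have : (fun i => x i - y i) = x - y := rfl
    rw [this, Matrix.mulVec_sub, Pi.sub_apply]
  have hforw : ∀ (y : D → ℝ) (t : ℝ), (∀ i, |y i| ≤ t) → ∀ i, |Bm⁻¹.mulVec y i| ≤ L * t := by
    intro y t hy i
    have := mulVec_bound Bm⁻¹ (inv_entry Bm hB1 hθ hdet) hy i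
    rw [hk] at this
    refine this.trans (le_of_eq ?_)
    rw [hL]; push_cast; ring
  refine transversal hk hk1 hN m (fun y => Bm⁻¹.mulVec y) hL1 hk0 hsub hforw ?_ s
    (fun l => line (p l) (u l)) w hw ?_ hκ hR hRm X x hX hM A hA ?_
  · intro y t hy i
    have h1 : y = Bm.mulVec (Bm⁻¹.mulVec y) := by
      rw [Matrix.mulVec_mulVec, Matrix.mul_nonsing_inv _ hunit, Matrix.one_mulVec]
    have h2 := mulVec_bound Bm hB1 hy i
    rw [← h1, hk] at h2
    refine h2.trans (le_of_eq ?_)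
    push_cast; ring
  · intro j l hl
    rintro _ ⟨_, ⟨t, rfl⟩, rfl⟩ _ ⟨_, ⟨t', rfl⟩, rfl⟩ i hi
    have key : ∀ i, Bm⁻¹.mulVec (fun i => p l i + t * u l i) i -
        Bm⁻¹.mulVec (fun i => p l i + t' * u l i) i = (t - t') * Bm⁻¹.mulVec (u l) i := by
      intro i
      rw [hsub]
      have : (fun i => p l i + t * u l i - (p l i + t' * u l i)) = (t - t') • u l := by
        funext i; simp only [Pi.smul_apply, smul_eq_mul]; ring
      rw [this, Matrix.mulVec_smul, Pi.smul_apply, smul_eq_mul]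
    have hej : ∀ i, Bm⁻¹.mulVec (e j) i = if i = j then 1 else 0 := by
      intro i
      have h1 : (Bm⁻¹ * Bm) i j = (1 : Matrix D D ℝ) i j := by
        rw [Matrix.nonsing_inv_mul _ hunit]
      rw [Matrix.one_apply] at h1
      rw [← h1]
      rfl
    have hd : ∀ i, |Bm⁻¹.mulVec (u l) i - (if i = j then 1 else 0)| ≤ 1 / (2 * N) := by
      intro i
      rw [← hej, hsub]
      refine (hforw _ _ (hs j l hl) i).trans (le_of_eq ?_)
      rw [hL]; field_simp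
    have h1 := hd i
    have h2 := hd j
    rw [if_neg hi, sub_zero] at h1
    rw [if_pos rfl] at h2
    have h3 : 1 / (2 * (N : ℝ)) ≤ 1 / 2 := by
      apply one_div_le_one_div_of_le <;> linarith
    have h4 : 1 / 2 ≤ |Bm⁻¹.mulVec (u l) j| := by
      rw [abs_le] at h2
      exact le_trans (by linarith [h2.1]) (le_abs_self _)
    simp only [key, abs_mul]
    rw [mul_left_comm]
    refine mul_le_mul_of_nonneg_left (h1.trans ?_) (abs_nonneg _)
    calc 1 / (2 * (N : ℝ)) = 1 / N * (1 / 2) := by field_simp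
      _ ≤ _ := mul_le_mul_of_nonneg_left h4 (by positivity)
  · intro a ha j l hl
    obtain ⟨t, ht⟩ := hnear a ha j l hl
    exact ⟨_, ⟨t, rfl⟩, ht⟩

/-- **Multilinear Kakeya** (Bennett–Carbery–Tao, Guth's proof) in `ℝ^D`, `#D = k + 1`. -/
theorem mk.{u, v} {k : ℕ} (hk : Fintype.card D = k + 1) (hk1 : 1 ≤ k) (ε : ℝ) (hε : 0 < ε) :
    ∃ C : ℝ, 0 < C ∧ ∀ {ι : Type u} {α : Type v} (s : D → Finset ι) (w : ι → ℝ)
      (p u : ι → D → ℝ) (X : Finset α) (x : α → D → ℝ) (A : α → D → Finset ι) (θ κ R M : ℝ),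
      0 < θ → θ ≤ 1 → 1 ≤ κ → 1 ≤ R → (∀ j, ∀ l ∈ s j, 0 ≤ w l) →
      (∀ j, ∀ l ∈ s j, ∀ i, |u l i| ≤ 1) → (∀ a ∈ X, ∀ i, |x a i| ≤ R) → Mult X x M →
      (∀ a ∈ X, ∀ j, A a j ⊆ s j) →
      (∀ a ∈ X, ∀ j, ∀ l ∈ A a j, ∃ t : ℝ, ∀ i, |x a i - (p l i + t * u l i)| ≤ κ) →
      (∀ a ∈ X, ∀ l : D → ι, (∀ j, l j ∈ A a j) →
        θ ≤ |(Matrix.of fun i j => u (l j) i).det|) →
      ∑ a ∈ X, ∏ j, (∑ l ∈ A a j, w l) ^ ((1 : ℝ) / k) ≤
        C * M * κ ^ (k + 1) / θ ^ ((k + 1) * (k + 2)) * R ^ ε *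
          ∏ j, (∑ l ∈ s j, w l) ^ ((1 : ℝ) / k) := by
  classical
  obtain ⟨N, hN, hsc⟩ := exists_scale (c := 11 ^ (k + 1)) (one_le_pow₀ (by norm_num)) ε hε
  have hF : (1 : ℝ) ≤ (k + 1).factorial := by exact_mod_cast Nat.factorial_pos _
  have hk0 : (1 : ℝ) ≤ (k : ℝ) + 1 := by linarith [Nat.cast_nonneg (α := ℝ) k]
  have hN1 : (1 : ℝ) ≤ N := by exact_mod_cast hN
  have hkR : (1 : ℝ) ≤ k := by exact_mod_cast hk1
  set F : ℝ := (k + 1) * (k + 1).factorial with hFdef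
  have hF1 : 1 ≤ F := by rw [hFdef]; nlinarith
  refine ⟨(10 * N * F) ^ ((k + 1) * (k + 1)) * (10 * (k + 1) * F) ^ (k + 1) * 2 ^ (k + 1) *
    11 ^ (k + 1), by positivity, ?_⟩
  intro ι α s w p u X x A θ κ R M hθ hθ1 hκ hR hw hu hX hM hA hnear htr
  obtain ⟨m, hRm, hm⟩ := hsc R hR
  have hM0 : 0 ≤ M := le_trans (Nat.cast_nonneg _) (hM 0)
  set η : ℝ := θ / (2 * N * F) with hη
  have hη0 : 0 < η := by positivity
  have hη1 : 1 ≤ 1 / η := by
    rw [hη, one_div_div, le_div_iff₀ hθ]; nlinarith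
  set P : ℝ := ∏ j, (∑ l ∈ s j, w l) ^ ((1 : ℝ) / k) with hP
  have hP0 : 0 ≤ P := prod_nonneg fun j _ => Real.rpow_nonneg (sum_nonneg (hw j)) _
  set A' : (D → D → ℤ) → α → D → Finset ι := fun τ a j =>
    (A a j).filter fun l => cix η (u l) = τ j with hA'
  have hwA : ∀ a ∈ X, ∀ j, ∀ l ∈ A a j, 0 ≤ w l := fun a ha j l hl => hw j l (hA a ha j hl)
  have e1 : ∀ a ∈ X, ∏ j, (∑ l ∈ A a j, w l) ^ ((1 : ℝ) / k) ≤
      ∑ τ ∈ Fintype.piFinset fun _ : D => box D (1 / η),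
        ∏ j, (∑ l ∈ A' τ a j, w l) ^ ((1 : ℝ) / k) := by
    intro a ha
    rw [← prod_univ_sum (fun _ : D => box D (1 / η)) fun j c =>
      (∑ l ∈ (A a j).filter fun l => cix η (u l) = c, w l) ^ ((1 : ℝ) / k)]
    refine prod_le_prod (fun j _ => Real.rpow_nonneg (sum_nonneg (hwA a ha j)) _) fun j _ => ?_
    rw [← sum_fiberwise_of_maps_to (g := fun l => cix η (u l)) (t := box D (1 / η))
      fun l hl => cix_mem hη0 (hu j l (hA a ha j hl))]
    exact rpow_sum_le _ _ (fun c _ => sum_nonneg fun l hl => hwA a ha j l (mem_filter.1 hl).1)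
      (by positivity) (by rw [div_le_one (by linarith)]; exact hkR)
  refine (sum_le_sum e1).trans ?_
  rw [sum_comm]
  have e2 : ∀ τ ∈ Fintype.piFinset fun _ : D => box D (1 / η),
      ∑ a ∈ X, ∏ j, (∑ l ∈ A' τ a j, w l) ^ ((1 : ℝ) / k) ≤
        M * (10 * (k + 1) * (F / θ) * κ) ^ (k + 1) * (2 ^ (k + 1) * (11 ^ (k + 1) * R ^ ε) * P) := by
    intro τ _
    by_cases h : ∃ a ∈ X, ∀ j, (A' τ a j).Nonempty
    · obtain ⟨a0, ha0, h0⟩ := h
      choose l0 hl0 using h0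
      have hl1 : ∀ j, l0 j ∈ A a0 j := fun j => (mem_filter.1 (hl0 j)).1
      have hl2 : ∀ j, cix η (u (l0 j)) = τ j := fun j => (mem_filter.1 (hl0 j)).2
      have key := tuple hk hk1 hN m (fun j => (s j).filter fun l => cix η (u l) = τ j) w p u
        (fun j l hl => hw j l (mem_filter.1 hl).1) (fun j => u (l0 j))
        (fun j i => hu j _ (hA a0 ha0 j (hl1 j)) i) hθ hθ1 (htr a0 ha0 l0 hl1)
        (fun j l hl i => cix_close hη0 ((mem_filter.1 hl).2.trans (hl2 j).symm) i)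
        hκ hR hRm X x hX hM (A' τ)
        (fun a ha j => filter_subset_filter _ (hA a ha j))
        (fun a ha j l hl => hnear a ha j l (mem_filter.1 hl).1)
      refine key.trans (mul_le_mul_of_nonneg_left ?_ (by positivity))
      refine mul_le_mul (mul_le_mul_of_nonneg_left hm (by positivity)) ?_
        (prod_nonneg fun j _ => Real.rpow_nonneg
          (sum_nonneg fun l hl => hw j l (mem_filter.1 hl).1) _) (by positivity)
      refine prod_le_prod (fun j _ => Real.rpow_nonneg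
          (sum_nonneg fun l hl => hw j l (mem_filter.1 hl).1) _) fun j _ => ?_
      exact Real.rpow_le_rpow (sum_nonneg fun l hl => hw j l (mem_filter.1 hl).1)
        (sum_le_sum_of_subset_of_nonneg (filter_subset _ _) fun l hl _ => hw j l hl)
        (by positivity)
    · push Not at h
      have : ∑ a ∈ X, ∏ j, (∑ l ∈ A' τ a j, w l) ^ ((1 : ℝ) / k) = 0 := by
        refine sum_eq_zero fun a ha => ?_
        obtain ⟨j, hj⟩ := h a ha
        refine prod_eq_zero (mem_univ j) ?_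
        rw [hj, sum_empty, Real.zero_rpow (by positivity)]
      rw [this]
      positivity
  refine (sum_le_card_nsmul _ _ _ e2).trans ?_
  rw [nsmul_eq_mul]
  have hc : ((Fintype.piFinset fun _ : D => box D (1 / η)).card : ℝ) ≤
      (10 * N * F / θ) ^ ((k + 1) * (k + 1)) := by
    rw [Fintype.card_piFinset, prod_const, card_univ, hk, pow_mul]
    push_cast
    refine pow_le_pow_left₀ (by positivity) ((card_box hη1).trans (le_of_eq ?_)) _
    rw [hk, hη]
    congr 1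
    field_simp
    norm_num
  refine (mul_le_mul_of_nonneg_right hc (by positivity)).trans (le_of_eq ?_)
  have e3 : θ ^ ((k + 1) * (k + 2)) = θ ^ ((k + 1) * (k + 1)) * θ ^ (k + 1) := by
    rw [← pow_add]; congr 1
  rw [e3, div_pow, show 10 * (k + 1) * (F / θ) * κ = (10 * (k + 1) * F) * κ / θ by ring, div_pow,
    mul_pow _ κ]
  field_simp

end Crest.Agent.N76.MK
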