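import Crest.Agent.N76.MK.LW

/-! # Row 76: near-axis multilinear Kakeya in any dimension (Guth's induction on scales)
(helper96; same scheme as `R136/Mk4b_418` in dimension four) -/

set_option autoImplicit false

namespace Crest.Agent.N76.MK

open Finset Function

variable {D : Type*}

/-- `x` is within sup-distance `r` of the set `S` -/
def Nr (S : Set (D → ℝ)) (x : D → ℝ) (r : ℝ) : Prop := ∃ p ∈ S, ∀ i, |x i - p i| ≤ r

lemma Nr.mono {S : Set (D → ℝ)} {x : D → ℝ} {r r' : ℝ} (h : Nr S x r) (hr : r ≤ r') :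
    Nr S x r' := by
  obtain ⟨p, hp, hs⟩ := h
  exact ⟨p, hp, fun i => (hs i).trans hr⟩

lemma Nr.shift {S : Set (D → ℝ)} {x y : D → ℝ} {r d : ℝ} (h : Nr S x r)
    (hd : ∀ i, |y i - x i| ≤ d) : Nr S y (r + d) := by
  obtain ⟨p, hp, hs⟩ := h
  refine ⟨p, hp, fun i => ?_⟩
  have : y i - p i = (x i - p i) + (y i - x i) := by ring
  rw [this]
  exact (abs_add_le _ _).trans (add_le_add (hs i) (hd i))

/-- integer points as real vectors, scaled by `σ` -/
def pt (σ : ℝ) (k : D → ℤ) : D → ℝ := fun i => σ * (k i : ℝ)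

/-- the child cube -/
def ch (N : ℕ) (K : D → ℤ) (a : D → Fin N) : D → ℤ := fun i => N * K i + ((a i : ℕ) : ℤ)

lemma near_parent {σ : ℝ} (hσ : 0 ≤ σ) {N : ℕ} {K : D → ℤ} {a : D → Fin N} {S : Set (D → ℝ)}
    (h : Nr S (pt σ (ch N K a)) σ) : Nr S (pt (σ * N) K) (σ * N) := by
  have h1 : Nr S (pt (σ * N) K) (σ + σ * (N - 1)) := by
    refine h.shift fun i => ?_
    simp only [pt, ch]
    push_cast
    have : σ * N * (K i : ℝ) - σ * (N * K i + ((a i : ℕ) : ℝ)) = -(σ * ((a i : ℕ) : ℝ)) := by ring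
    rw [this, abs_neg, abs_mul, abs_of_nonneg hσ]
    refine mul_le_mul_of_nonneg_left ?_ hσ
    have h2 : ((a i : ℕ) : ℝ) + 1 ≤ N := by exact_mod_cast (a i).2
    rw [abs_of_nonneg (Nat.cast_nonneg _)]
    linarith
  refine h1.mono (le_of_eq ?_)
  ring

/-- near-axis set in direction `j` -/
def AxS (N : ℕ) (j : D) (S : Set (D → ℝ)) : Prop :=
  ∀ p ∈ S, ∀ q ∈ S, ∀ i, i ≠ j → |p i - q i| ≤ 1 / (N : ℝ) * |p j - q j|

lemma column {σ : ℝ} (hσ : 0 < σ) {N : ℕ} (hN : 1 ≤ N) {j : D} {S : Set (D → ℝ)}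
    (he : AxS N j S) {k k' : D → ℤ}
    (hk : Nr S (pt σ k) σ) (hk' : Nr S (pt σ k') σ) (hj : |k j - k' j| ≤ N)
    (i : D) (hi : i ≠ j) : |k i - k' i| ≤ 5 := by
  obtain ⟨p, hp, hs⟩ := hk
  obtain ⟨q, hq, hs'⟩ := hk'
  have hN' : (1 : ℝ) ≤ N := by exact_mod_cast hN
  have hjR : |(k j : ℝ) - k' j| ≤ N := by exact_mod_cast hj
  have h1 := hs j
  have h2 := hs' j
  simp only [pt] at h1 h2
  have h3 : |p j - q j| ≤ σ * (N + 2) := by
    have : p j - q j = -(σ * k j - p j) + (σ * k' j - q j) + σ * (k j - k' j) := by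
      ring
    rw [this]
    refine (abs_add_le _ _).trans ?_
    have h4 := abs_add_le (-(σ * (k j : ℝ) - p j)) (σ * (k' j : ℝ) - q j)
    rw [abs_neg] at h4
    have h5 : |σ * ((k j : ℝ) - k' j)| ≤ σ * N := by
      rw [abs_mul, abs_of_pos hσ]
      exact mul_le_mul_of_nonneg_left hjR hσ.le
    nlinarith
  have g1 := hs i
  have g2 := hs' i
  simp only [pt] at g1 g2
  have h6 : |σ * ((k i : ℝ) - k' i)| ≤ σ * 5 := by
    have : σ * ((k i : ℝ) - k' i) = (σ * k i - p i) - (σ * k' i - q i) + (p i - q i) := by ring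
    rw [this]
    refine (abs_add_le _ _).trans ?_
    have h7 := abs_sub (σ * (k i : ℝ) - p i) (σ * k' i - q i)
    have h8 : |p i - q i| ≤ σ * 3 := by
      calc |p i - q i| ≤ 1 / (N : ℝ) * |p j - q j| := he p hp q hq i hi
        _ ≤ (1 / (N : ℝ)) * (σ * (N + 2)) :=
            mul_le_mul_of_nonneg_left h3 (by positivity)
        _ ≤ σ * 3 := by
            rw [one_div, inv_mul_le_iff₀ (by linarith)]
            nlinarith
    linarith
  rw [abs_mul, abs_of_pos hσ] at h6
  have h9 := le_of_mul_le_mul_left h6 hσ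
  exact_mod_cast h9

lemma card_fin_close {N : ℕ} (c : Fin N) :
    (univ.filter fun b : Fin N => |((b : ℕ) : ℤ) - ((c : ℕ) : ℤ)| ≤ 5).card ≤ 11 := by
  classical
  have h : (univ.filter fun b : Fin N => |((b : ℕ) : ℤ) - ((c : ℕ) : ℤ)| ≤ 5).card ≤
      (Finset.Icc ((c : ℕ) - 5) ((c : ℕ) + 5)).card := by
    refine card_le_card_of_injOn (fun b => (b : ℕ)) ?_ (fun a _ b _ h => Fin.ext h)
    intro b hb
    simp only [coe_filter, mem_univ, true_and, Set.mem_ofPred_eq, abs_le] at hb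
    simp only [coe_Icc, Set.mem_Icc]
    omega
  rw [Nat.card_Icc] at h
  omega

variable [Fintype D] [DecidableEq D]

open Classical in
/-- total weight of the sets passing near the cube `k` at scale `σ` -/
noncomputable def W {ι : Type*} (s : Finset ι) (S : ι → Set (D → ℝ)) (w : ι → ℝ) (σ : ℝ)
    (k : D → ℤ) : ℝ :=
  ∑ l ∈ s, if Nr (S l) (pt σ k) σ then w l else 0

omit [Fintype D] [DecidableEq D] in
lemma W_nonneg {ι : Type*} (s : Finset ι) (S : ι → Set (D → ℝ)) (w : ι → ℝ)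
    (hw : ∀ l ∈ s, 0 ≤ w l) (σ : ℝ) (k : D → ℤ) : 0 ≤ W s S w σ k := by
  classical
  refine Finset.sum_nonneg fun l hl => ?_
  split_ifs
  · exact hw l hl
  · exact le_rfl

omit [Fintype D] [DecidableEq D] in
lemma W_le {ι : Type*} (s : Finset ι) (S : ι → Set (D → ℝ)) (w : ι → ℝ)
    (hw : ∀ l ∈ s, 0 ≤ w l) (σ : ℝ) (k : D → ℤ) : W s S w σ k ≤ ∑ l ∈ s, w l := by
  classical
  refine Finset.sum_le_sum fun l hl => ?_
  split_ifs
  · exact le_rfl
  · exact hw l hl

open Classical in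
/-- a near-axis set meets few columns of children -/
lemma card_col {k : ℕ} (hk : Fintype.card D = k + 1) {σ : ℝ} (hσ : 0 < σ) {N : ℕ} (hN : 1 ≤ N)
    {j : D} {S : Set (D → ℝ)} (he : AxS N j S) (K : D → ℤ) :
    ((univ.filter fun a : D → Fin N =>
      ∃ c : Fin N, Nr S (pt σ (ch N K (update a j c))) σ).card : ℝ) ≤ N * 11 ^ k := by
  rcases (univ.filter fun a : D → Fin N =>
      ∃ c : Fin N, Nr S (pt σ (ch N K (update a j c))) σ).eq_empty_or_nonempty with h | ⟨a0, h0⟩
  · rw [h]; simp only [card_empty, Nat.cast_zero]; positivity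
  · obtain ⟨c0, h0⟩ := (mem_filter.1 h0).2
    have hsub : (univ.filter fun a : D → Fin N =>
        ∃ c : Fin N, Nr S (pt σ (ch N K (update a j c))) σ) ⊆
        Fintype.piFinset fun i => if i = j then univ else
          univ.filter fun b : Fin N => |((b : ℕ) : ℤ) - ((a0 i : ℕ) : ℤ)| ≤ 5 := by
      intro a ha
      obtain ⟨c, ha⟩ := (mem_filter.1 ha).2
      rw [Fintype.mem_piFinset]
      intro i
      split_ifs with hi
      · exact mem_univ _
      · rw [mem_filter]
        refine ⟨mem_univ _, ?_⟩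
        have := column hσ hN he ha h0 (by
          simp only [ch, update_self]
          have h1 := c.2
          have h2 := c0.2
          rw [abs_le]; constructor <;> omega) i hi
        simp only [ch, update_of_ne hi] at this
        convert this using 2
        ring
    have h1 := card_le_card hsub
    rw [Fintype.card_piFinset, ← mul_prod_erase univ _ (mem_univ j), if_pos rfl, card_univ,
      Fintype.card_fin] at h1
    have h2 : ∏ i ∈ univ.erase j, (if i = j then univ else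
          univ.filter fun b : Fin N => |((b : ℕ) : ℤ) - ((a0 i : ℕ) : ℤ)| ≤ 5).card ≤ 11 ^ k := by
      have hcard : (univ.erase j).card = k := by
        rw [card_erase_of_mem (mem_univ j), card_univ, hk]; rfl
      rw [← hcard]
      refine prod_le_pow_card _ _ _ fun i hi => ?_
      rw [if_neg (ne_of_mem_erase hi)]
      exact card_fin_close _
    exact_mod_cast h1.trans (Nat.mul_le_mul_left _ h2)

/-- the product of the `k`-th roots -/
noncomputable def PK (k : ℕ) {ι : Type*} (s : D → Finset ι) (S : ι → Set (D → ℝ)) (w : ι → ℝ)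
    (σ : ℝ) (x : D → ℤ) : ℝ :=
  ∏ j, W (s j) S w σ x ^ ((1 : ℝ) / k)

omit [DecidableEq D] in
lemma PK_nonneg (k : ℕ) {ι : Type*} (s : D → Finset ι) (S : ι → Set (D → ℝ)) (w : ι → ℝ)
    (hw : ∀ j, ∀ l ∈ s j, 0 ≤ w l) (σ : ℝ) (x : D → ℤ) : 0 ≤ PK k s S w σ x :=
  prod_nonneg fun j _ => Real.rpow_nonneg (W_nonneg (s j) S w (hw j) σ x) _

/-- **local step** -/
lemma local_step {k : ℕ} (hk : Fintype.card D = k + 1) (hk1 : 1 ≤ k) {ι : Type*}
    (s : D → Finset ι) (S : ι → Set (D → ℝ)) (w : ι → ℝ)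
    (hw : ∀ j, ∀ l ∈ s j, 0 ≤ w l) {N : ℕ} (hN : 1 ≤ N)
    (hax : ∀ j, ∀ l ∈ s j, AxS N j (S l)) {σ : ℝ} (hσ : 0 < σ) (K : D → ℤ) :
    ∑ a : D → Fin N, PK k s S w σ (ch N K a) ≤ 11 ^ (k + 1) * PK k s S w (σ * N) K := by
  classical
  have : Nonempty (Fin N) := ⟨⟨0, hN⟩⟩
  have hkR : (0 : ℝ) < k := by exact_mod_cast hk1
  have hNR : (0 : ℝ) < N := by exact_mod_cast hN
  set g : D → (D → Fin N) → ℝ := fun j a => ∑ l ∈ s j,
    if ∃ c : Fin N, Nr (S l) (pt σ (ch N K (update a j c))) σ then w l else 0 with hg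
  have g0 : ∀ j a, 0 ≤ g j a := fun j a => sum_nonneg fun l hl => by
    split_ifs; exacts [hw j l hl, le_rfl]
  have g1 : ∀ j a c, g j (update a j c) = g j a := by
    intro j a c
    simp only [hg, update_idem]
  have b0 : ∀ j a, W (s j) S w σ (ch N K a) ≤ g j a := by
    intro j a
    refine sum_le_sum fun l hl => ?_
    by_cases h : Nr (S l) (pt σ (ch N K a)) σ
    · rw [if_pos h, if_pos ⟨a j, by rwa [update_eq_self]⟩]
    · rw [if_neg h]
      split_ifs; exacts [hw j l hl, le_rfl]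
  have t0 : ∀ j, (∑ a, g j a) / (Fintype.card (Fin N) : ℝ) ≤ 11 ^ k * W (s j) S w (σ * N) K := by
    intro j
    rw [Fintype.card_fin, div_le_iff₀ hNR]
    simp only [hg]
    rw [sum_comm]
    unfold W
    rw [mul_sum, sum_mul]
    refine sum_le_sum fun l hl => ?_
    rw [← sum_filter, sum_const, nsmul_eq_mul]
    by_cases hR : Nr (S l) (pt (σ * N) K) (σ * N)
    · rw [if_pos hR]
      have := mul_le_mul_of_nonneg_right (card_col hk hσ hN (hax j l hl) K) (hw j l hl)
      refine le_trans (le_of_eq ?_) (this.trans (le_of_eq (by ring)))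
      congr
    · rw [if_neg hR]
      have : (univ.filter fun a : D → Fin N =>
          ∃ c : Fin N, Nr (S l) (pt σ (ch N K (update a j c))) σ) = ∅ := by
        rw [filter_eq_empty_iff]
        rintro a _ ⟨c, h⟩
        exact hR (near_parent hσ.le h)
      rw [this]
      simp
  calc ∑ a : D → Fin N, PK k s S w σ (ch N K a)
      ≤ ∑ a : D → Fin N, ∏ j, g j a ^ ((1 : ℝ) / k) := by
        refine sum_le_sum fun a _ => prod_le_prod (fun j _ =>
          Real.rpow_nonneg (W_nonneg _ _ _ (hw j) _ _) _) fun j _ => ?_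
        exact Real.rpow_le_rpow (W_nonneg _ _ _ (hw j) _ _) (b0 j a) (by positivity)
    _ ≤ ∏ j, ((∑ a, g j a) / Fintype.card (Fin N)) ^ ((1 : ℝ) / k) := lw hk hk1 g g0 g1
    _ ≤ ∏ j, (11 * W (s j) S w (σ * N) K ^ ((1 : ℝ) / k)) := by
        refine prod_le_prod (fun j _ => Real.rpow_nonneg (div_nonneg (sum_nonneg fun a _ =>
          g0 j a) (Nat.cast_nonneg _)) _) fun j _ => ?_
        refine (Real.rpow_le_rpow (div_nonneg (sum_nonneg fun a _ =>
          g0 j a) (Nat.cast_nonneg _)) (t0 j) (by positivity)).trans (le_of_eq ?_)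
        rw [Real.mul_rpow (by positivity) (W_nonneg _ _ _ (hw j) _ _), ← Real.rpow_natCast _ k,
          ← Real.rpow_mul (by norm_num), mul_one_div_cancel hkR.ne', Real.rpow_one]
    _ = _ := by rw [prod_mul_distrib, prod_const, card_univ, hk]; rfl

/-- the parent cube -/
def par (N : ℕ) (x : D → ℤ) : D → ℤ := fun i => x i / N

lemma sum_children {N : ℕ} (hN : 1 ≤ N) (F : (D → ℤ) → ℝ) (hF : ∀ k, 0 ≤ F k)
    (X : Finset (D → ℤ)) (K : D → ℤ) (hX : ∀ k ∈ X, par N k = K) :
    ∑ k ∈ X, F k ≤ ∑ a : D → Fin N, F (ch N K a) := by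
  classical
  have hN0 : (0 : ℤ) < N := by exact_mod_cast hN
  have hsub : X ⊆ univ.image (ch N K) := by
    intro x hx
    rw [mem_image]
    refine ⟨fun i => ⟨(x i % N).toNat, ?_⟩, mem_univ _, ?_⟩
    · have h3 := Int.emod_nonneg (x i) (ne_of_gt hN0)
      have h4 := Int.emod_lt_of_pos (x i) hN0
      omega
    · funext i
      have h2 : x i / (N : ℤ) = K i := congrFun (hX x hx) i
      have h3 := Int.emod_nonneg (x i) (ne_of_gt hN0)
      have h4 := Int.mul_ediv_add_emod (x i) N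
      simp only [ch, Int.toNat_of_nonneg h3]
      rw [← h2]; exact h4
  refine (sum_le_sum_of_subset_of_nonneg hsub fun x _ _ => hF x).trans ?_
  exact sum_image_le_of_nonneg fun a _ => hF _

/-- **near-axis multilinear Kakeya** for abstract sets. -/
theorem axial {k : ℕ} (hk : Fintype.card D = k + 1) (hk1 : 1 ≤ k) {ι : Type*}
    (s : D → Finset ι) (S : ι → Set (D → ℝ)) (w : ι → ℝ)
    (hw : ∀ j, ∀ l ∈ s j, 0 ≤ w l) {N : ℕ} (hN : 1 ≤ N)
    (hax : ∀ j, ∀ l ∈ s j, AxS N j (S l)) (m : ℕ) : ∀ {σ : ℝ}, 0 < σ →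
    ∀ (X : Finset (D → ℤ)), (∀ x ∈ X, ∀ i, -((N : ℤ) ^ m) ≤ x i ∧ x i < (N : ℤ) ^ m) →
    ∑ x ∈ X, PK k s S w σ x ≤ 2 ^ (k + 1) * (11 ^ (k + 1)) ^ m *
      ∏ j, (∑ l ∈ s j, w l) ^ ((1 : ℝ) / k) := by
  classical
  have hs : ∀ j, 0 ≤ ∑ l ∈ s j, w l := fun j => Finset.sum_nonneg (hw j)
  have hT : 0 ≤ ∏ j, (∑ l ∈ s j, w l) ^ ((1 : ℝ) / k) :=
    prod_nonneg fun j _ => Real.rpow_nonneg (hs j) _
  induction m with
  | zero =>
    intro σ hσ X hX
    have hcard : X.card ≤ 2 ^ (k + 1) := by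
      have hsub : X ⊆ Fintype.piFinset (fun _ : D => Finset.Ico (-1 : ℤ) 1) := by
        intro x hx
        rw [Fintype.mem_piFinset]
        intro i
        have := hX x hx i
        simp only [pow_zero] at this
        rw [Finset.mem_Ico]
        exact this
      have h1 := Finset.card_le_card hsub
      rw [Fintype.card_piFinset] at h1
      simpa [hk] using h1
    have hbd : ∀ x ∈ X, PK k s S w σ x ≤ ∏ j, (∑ l ∈ s j, w l) ^ ((1 : ℝ) / k) := by
      intro x _
      refine prod_le_prod (fun j _ => Real.rpow_nonneg (W_nonneg _ _ _ (hw j) _ _) _) fun j _ => ?_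
      exact Real.rpow_le_rpow (W_nonneg _ _ _ (hw j) _ _) (W_le _ _ _ (hw j) _ _) (by positivity)
    refine (Finset.sum_le_card_nsmul X _ _ hbd).trans ?_
    rw [nsmul_eq_mul, pow_zero, mul_one]
    refine mul_le_mul_of_nonneg_right ?_ hT
    exact_mod_cast hcard
  | succ m ih =>
    intro σ hσ X hX
    have hN0 : (0 : ℤ) < N := by exact_mod_cast hN
    have hNR : (0 : ℝ) < N := by exact_mod_cast hN
    have e1 : ∑ x ∈ X, PK k s S w σ x =
        ∑ K ∈ X.image (par N), ∑ x ∈ X.filter (fun x => par N x = K), PK k s S w σ x := by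
      rw [Finset.sum_fiberwise_of_maps_to]
      intro x hx
      exact Finset.mem_image_of_mem _ hx
    rw [e1]
    have e2 : ∀ K ∈ X.image (par N), ∑ x ∈ X.filter (fun x => par N x = K), PK k s S w σ x ≤
        11 ^ (k + 1) * PK k s S w (σ * N) K := by
      intro K _
      refine (sum_children hN (PK k s S w σ) (PK_nonneg k s S w hw σ) _ K ?_).trans
        (local_step hk hk1 s S w hw hN hax hσ K)
      intro x hx
      exact (Finset.mem_filter.mp hx).2
    refine (Finset.sum_le_sum e2).trans ?_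
    rw [← Finset.mul_sum]
    have h3 := ih (σ := σ * N) (by positivity) (X.image (par N)) ?_
    · refine (mul_le_mul_of_nonneg_left h3 (by positivity)).trans (le_of_eq ?_)
      rw [pow_succ _ m]; ring
    · intro K hK i
      obtain ⟨x, hx, rfl⟩ := Finset.mem_image.mp hK
      have h4 := hX x hx i
      simp only [par]
      rw [pow_succ] at h4
      constructor
      · rw [Int.le_ediv_iff_mul_le hN0]
        linarith [h4.1]
      · rw [Int.ediv_lt_iff_lt_mul hN0]
        exact h4.2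

end Crest.Agent.N76.MK
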