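import Mathlib

/-! # Row 76: discrete Loomis–Whitney inequality in any dimension (helper96) -/

set_option autoImplicit false

namespace Crest.Agent.N76.MK

open Finset Function

/-- Hölder's inequality for finitely many functions with equal exponents. -/
lemma holder_many {J A : Type*} (s : Finset J) (t : Finset A) {k : ℕ} (hk : s.card = k)
    (hk1 : 1 ≤ k) (f : J → A → ℝ) (hf : ∀ j ∈ s, ∀ a ∈ t, 0 ≤ f j a) :
    ∑ a ∈ t, ∏ j ∈ s, f j a ^ ((1 : ℝ) / k) ≤ ∏ j ∈ s, (∑ a ∈ t, f j a) ^ ((1 : ℝ) / k) := by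
  classical
  have hkR : (0 : ℝ) < k := by exact_mod_cast hk1
  have hθ : (0 : ℝ) < 1 / k := by positivity
  have hS : ∀ j ∈ s, 0 ≤ ∑ a ∈ t, f j a := fun j hj => sum_nonneg (hf j hj)
  by_cases h0 : ∃ j ∈ s, ∑ a ∈ t, f j a = 0
  · obtain ⟨j, hj, hz⟩ := h0
    have h1 : ∀ a ∈ t, f j a = 0 := (sum_eq_zero_iff_of_nonneg (hf j hj)).1 hz
    have h2 : ∑ a ∈ t, ∏ j ∈ s, f j a ^ ((1 : ℝ) / k) = 0 := by
      refine sum_eq_zero fun a ha => prod_eq_zero hj ?_
      rw [h1 a ha, Real.zero_rpow hθ.ne']
    rw [h2]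
    exact prod_nonneg fun j hj => Real.rpow_nonneg (hS j hj) _
  · push Not at h0
    have hP : ∀ j ∈ s, 0 < ∑ a ∈ t, f j a := fun j hj => lt_of_le_of_ne (hS j hj) (h0 j hj).symm
    set P : ℝ := ∏ j ∈ s, (∑ a ∈ t, f j a) ^ ((1 : ℝ) / k) with hPdef
    have hP0 : 0 ≤ P := prod_nonneg fun j hj => Real.rpow_nonneg (hS j hj) _
    have h1 : ∀ a ∈ t, ∏ j ∈ s, f j a ^ ((1 : ℝ) / k) ≤
        P * ∑ j ∈ s, (1 / k : ℝ) * (f j a / ∑ b ∈ t, f j b) := by
      intro a ha
      have h2 := Real.geom_mean_le_arith_mean_weighted s (fun _ => (1 / k : ℝ))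
        (fun j => f j a / ∑ b ∈ t, f j b) (fun _ _ => hθ.le)
        (by rw [sum_const, hk, nsmul_eq_mul]; field_simp)
        (fun j hj => div_nonneg (hf j hj a ha) (hS j hj))
      refine le_trans (le_of_eq ?_) (mul_le_mul_of_nonneg_left h2 hP0)
      rw [hPdef, ← prod_mul_distrib]
      refine prod_congr rfl fun j hj => ?_
      rw [← Real.mul_rpow (hS j hj) (div_nonneg (hf j hj a ha) (hS j hj)),
        mul_div_cancel₀ _ (hP j hj).ne']
    refine (sum_le_sum h1).trans (le_of_eq ?_)
    rw [← mul_sum, sum_comm]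
    have h3 : ∀ j ∈ s, ∑ a ∈ t, (1 / k : ℝ) * (f j a / ∑ b ∈ t, f j b) = 1 / k := by
      intro j hj
      rw [← mul_sum, ← sum_div, div_self (hP j hj).ne', mul_one]
    rw [sum_congr rfl h3, sum_const, hk, nsmul_eq_mul]
    field_simp

variable {D A : Type*} [Fintype D] [DecidableEq D] [Fintype A]

lemma sum_update (F : (D → A) → ℝ) (i : D) :
    ∑ x : D → A, ∑ a : A, F (update x i a) = (Fintype.card A : ℝ) * ∑ x, F x := by
  classical
  have e : ∑ p : (D → A) × A, F (update p.1 i p.2) = ∑ p : (D → A) × A, F p.1 := by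
    refine Finset.sum_bij' (fun p _ => (update p.1 i p.2, p.1 i))
      (fun p _ => (update p.1 i p.2, p.1 i)) (fun _ _ => mem_univ _) (fun _ _ => mem_univ _)
      ?_ ?_ ?_
    · intro p _; simp
    · intro p _; simp
    · intro p _; rfl
  rw [Fintype.sum_prod_type, Fintype.sum_prod_type] at e
  rw [e, mul_sum]
  refine sum_congr rfl fun x _ => ?_
  simp

lemma lw_aux [Nonempty A] {k : ℕ} (hk : Fintype.card D = k + 1) (hk1 : 1 ≤ k) (T : Finset D) :
    ∀ g : D → (D → A) → ℝ, (∀ j x, 0 ≤ g j x) → (∀ j x a, g j (update x j a) = g j x) →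
      (∀ j, ∀ i ∉ T, ∀ x a, g j (update x i a) = g j x) →
      ∑ x : D → A, ∏ j, g j x ^ ((1 : ℝ) / k) ≤
        ∑ _x : D → A, ∏ j, ((∑ y, g j y) / Fintype.card (D → A)) ^ ((1 : ℝ) / k) := by
  classical
  have hA : (0 : ℝ) < Fintype.card A := by exact_mod_cast Fintype.card_pos
  have hkR : (0 : ℝ) < k := by exact_mod_cast hk1
  induction T using Finset.induction_on with
  | empty =>
    intro g _ _ h
    have hc : ∀ j x y, g j x = g j y := by
      intro j x y
      have : ∀ S : Finset D, g j (S.piecewise y x) = g j x := by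
        intro S
        induction S using Finset.induction_on with
        | empty => simp
        | insert i S hi ih => rw [piecewise_insert, h j i (notMem_empty i), ih]
      rw [← this univ, piecewise_univ]
    refine sum_le_sum fun x _ => le_of_eq (prod_congr rfl fun j _ => ?_)
    congr 1
    rw [sum_congr rfl fun y _ => hc j y x, sum_const, nsmul_eq_mul, card_univ]
    have : (0 : ℝ) < Fintype.card (D → A) := by exact_mod_cast Fintype.card_pos
    field_simp
  | insert i T hi ih =>
    intro g h0 h1 h2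
    set g' : D → (D → A) → ℝ := fun j x => (∑ a, g j (update x i a)) / Fintype.card A with hg'
    have hs : ∀ j, ∑ y, g' j y = ∑ y, g j y := by
      intro j
      simp only [hg']
      rw [← sum_div, sum_update, mul_div_cancel_left₀ _ hA.ne']
    have hind : ∀ j i', (∀ x a, g j (update x i' a) = g j x) →
        ∀ x a, g' j (update x i' a) = g' j x := by
      intro j i' h x a
      simp only [hg']
      congr 1
      refine sum_congr rfl fun b _ => ?_
      by_cases e : i' = i
      · subst e; rw [update_idem]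
      · rw [update_comm e, h]
    have hself : ∀ j x a, g' j (update x i a) = g' j x := by
      intro j x a
      simp only [hg', update_idem]
    have key := ih g' (fun j x => div_nonneg (sum_nonneg fun a _ => h0 j _) hA.le)
      (fun j => hind j j (h1 j)) (by
        intro j i' hi' x a
        by_cases e : i' = i
        · subst e; exact hself j x a
        · exact hind j i' (h2 j i' (by simp [e, hi'])) x a)
    simp only [hs] at key
    refine le_trans ?_ key
    have e1 := sum_update (fun x : D → A => ∏ j, g j x ^ ((1 : ℝ) / k)) i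
    refine le_of_mul_le_mul_left ?_ hA
    rw [← e1, mul_sum]
    refine sum_le_sum fun x _ => ?_
    have hcard : (univ.erase i).card = k := by
      rw [card_erase_of_mem (mem_univ i), card_univ, hk]; rfl
    have e2 : ∀ a, ∏ j, g j (update x i a) ^ ((1 : ℝ) / k) =
        g i x ^ ((1 : ℝ) / k) * ∏ j ∈ univ.erase i, g j (update x i a) ^ ((1 : ℝ) / k) := by
      intro a
      rw [← mul_prod_erase univ _ (mem_univ i), h1]
    have e3 : g' i x = g i x := by
      simp only [hg', h1, sum_const, card_univ, nsmul_eq_mul]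
      field_simp
    rw [sum_congr rfl fun a _ => e2 a, ← mul_sum, ← mul_prod_erase univ _ (mem_univ i), e3,
      mul_left_comm]
    refine mul_le_mul_of_nonneg_left ?_ (Real.rpow_nonneg (h0 _ _) _)
    refine (holder_many (univ.erase i) univ hcard hk1 (fun j a => g j (update x i a))
      (fun j _ a _ => h0 j _)).trans (le_of_eq ?_)
    have e4 : (Fintype.card A : ℝ) = ∏ _j ∈ univ.erase i, (Fintype.card A : ℝ) ^ ((1 : ℝ) / k) := by
      rw [prod_const, hcard, ← Real.rpow_natCast, ← Real.rpow_mul hA.le]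
      rw [one_div_mul_cancel hkR.ne', Real.rpow_one]
    conv_rhs => rw [e4, ← prod_mul_distrib]
    refine prod_congr rfl fun j _ => ?_
    rw [← Real.mul_rpow hA.le (div_nonneg (sum_nonneg fun a _ => h0 j _) hA.le),
      mul_div_cancel₀ _ hA.ne']

/-- **Loomis–Whitney** on `D → A`, `#D = k + 1`: `g j` does not depend on the coordinate `j`. -/
theorem lw [Nonempty A] {k : ℕ} (hk : Fintype.card D = k + 1) (hk1 : 1 ≤ k)
    (g : D → (D → A) → ℝ) (h0 : ∀ j x, 0 ≤ g j x) (h1 : ∀ j x a, g j (update x j a) = g j x) :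
    ∑ x : D → A, ∏ j, g j x ^ ((1 : ℝ) / k) ≤
      ∏ j, ((∑ y, g j y) / Fintype.card A) ^ ((1 : ℝ) / k) := by
  classical
  have hA : (0 : ℝ) < Fintype.card A := by exact_mod_cast Fintype.card_pos
  have hkR : (0 : ℝ) < k := by exact_mod_cast hk1
  refine (lw_aux hk hk1 univ g h0 h1 (fun j i hi => absurd (mem_univ i) hi)).trans (le_of_eq ?_)
  rw [sum_const, card_univ, nsmul_eq_mul, Fintype.card_fun, hk]
  push_cast
  have e4 : (Fintype.card A : ℝ) ^ (k + 1) =
      ∏ _j : D, ((Fintype.card A : ℝ) ^ k) ^ ((1 : ℝ) / k) := by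
    rw [prod_const, card_univ, hk, ← Real.rpow_natCast _ k, ← Real.rpow_mul hA.le,
      mul_one_div_cancel hkR.ne', Real.rpow_one]
  conv_lhs => rw [e4, ← prod_mul_distrib]
  refine prod_congr rfl fun j _ => ?_
  have hs : 0 ≤ ∑ y, g j y := sum_nonneg fun y _ => h0 j y
  rw [← e4, ← Real.mul_rpow (by positivity) (by positivity)]
  congr 1
  field_simp
  ring

end Crest.Agent.N76.MK
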