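import Crest.Agent.N76.MK.Axial

/-! # Row 76: multilinear Kakeya after a linear change of variables (helper96) -/

set_option autoImplicit false

namespace Crest.Agent.N76.MK

open Finset Function

/-- choice of the base of the induction and of the number of scales -/
lemma exists_scale {c : ℝ} (hc : 1 ≤ c) (ε : ℝ) (hε : 0 < ε) : ∃ N : ℕ, 1 ≤ N ∧ ∀ R : ℝ, 1 ≤ R →
    ∃ m : ℕ, R < (N : ℝ) ^ m ∧ c ^ m ≤ c * R ^ ε := by
  obtain ⟨N, hN⟩ := exists_nat_gt (max 2 (c ^ (1 / ε)))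
  have hc0 : 0 < c := by linarith
  have hN2 : (2 : ℝ) < N := lt_of_le_of_lt (le_max_left _ _) hN
  have hN3 : c ^ (1 / ε) < N := lt_of_le_of_lt (le_max_right _ _) hN
  have hN0 : (0 : ℝ) < N := by linarith
  refine ⟨N, by have : (1 : ℝ) ≤ N := by linarith
                exact_mod_cast this, fun R hR => ?_⟩
  have h14 : c ≤ (N : ℝ) ^ ε := by
    calc c = (c ^ (1 / ε)) ^ ε := by
          rw [← Real.rpow_mul hc0.le]
          rw [one_div, inv_mul_cancel₀ hε.ne', Real.rpow_one]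
      _ ≤ (N : ℝ) ^ ε := Real.rpow_le_rpow (by positivity) hN3.le hε.le
  have hex : ∃ m : ℕ, R < (N : ℝ) ^ m := pow_unbounded_of_one_lt R (by linarith)
  classical
  set m := Nat.find hex with hm
  have h1 : R < (N : ℝ) ^ m := Nat.find_spec hex
  refine ⟨m, h1, ?_⟩
  have hm0 : m ≠ 0 := by
    intro h0
    rw [h0, pow_zero] at h1
    linarith
  obtain ⟨n, hn⟩ := Nat.exists_eq_succ_of_ne_zero hm0
  have h2 : (N : ℝ) ^ n ≤ R := by
    have := Nat.find_min hex (m := n) (by rw [← hm, hn]; exact Nat.lt_succ_self n)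
    exact not_lt.mp this
  rw [hn, Nat.succ_eq_add_one, pow_succ]
  have h3 : c ^ n ≤ R ^ ε := by
    calc c ^ n ≤ ((N : ℝ) ^ ε) ^ n := pow_le_pow_left₀ hc0.le h14 n
      _ = ((N : ℝ) ^ n) ^ ε := by
          rw [← Real.rpow_natCast, ← Real.rpow_mul hN0.le, mul_comm, Real.rpow_mul hN0.le,
            Real.rpow_natCast]
      _ ≤ R ^ ε := Real.rpow_le_rpow (by positivity) h2 hε.le
  nlinarith

variable {D : Type*} [Fintype D] [DecidableEq D]

/-- the integer box of radius `⌈ρ⌉` -/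
noncomputable def box (D : Type*) [Fintype D] [DecidableEq D] (ρ : ℝ) : Finset (D → ℤ) :=
  Fintype.piFinset fun _ : D => Finset.Icc (-(⌈ρ⌉₊ : ℤ)) ⌈ρ⌉₊

lemma card_box {ρ : ℝ} (hρ : 1 ≤ ρ) : ((box D ρ).card : ℝ) ≤ (5 * ρ) ^ Fintype.card D := by
  unfold box
  rw [Fintype.card_piFinset, prod_const, card_univ]
  have h2 : (Finset.Icc (-(⌈ρ⌉₊ : ℤ)) ⌈ρ⌉₊).card = 2 * ⌈ρ⌉₊ + 1 := by
    rw [Int.card_Icc]
    omega
  rw [h2]
  push_cast
  apply pow_le_pow_left₀ (by positivity)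
  have h3 : (⌈ρ⌉₊ : ℝ) < ρ + 1 := Nat.ceil_lt_add_one (by linarith)
  linarith

lemma mem_box {ρ : ℝ} {z : D → ℤ} (h : ∀ i, |(z i : ℝ)| < ρ + 1) : z ∈ box D ρ := by
  unfold box
  rw [Fintype.mem_piFinset]
  intro i
  have h2 : ρ ≤ (⌈ρ⌉₊ : ℝ) := Nat.le_ceil _
  have h3 : |(z i : ℝ)| < ((⌈ρ⌉₊ : ℤ) : ℝ) + 1 := by push_cast; linarith [h i]
  have h4 : |z i| < (⌈ρ⌉₊ : ℤ) + 1 := by exact_mod_cast h3
  rw [abs_lt] at h4
  rw [mem_Icc]
  omega

open Classical in
/-- at most `M` points in every unit cube -/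
def Mult {α : Type*} (X : Finset α) (x : α → D → ℝ) (M : ℝ) : Prop :=
  ∀ y : D → ℝ, ((X.filter fun a => ∀ i, |x a i - y i| ≤ 1).card : ℝ) ≤ M

lemma Mult.card_le {α : Type*} {X : Finset α} {x : α → D → ℝ} {M : ℝ} (h : Mult X x M)
    {ρ : ℝ} (hρ : 1 ≤ ρ) (y : D → ℝ) (Y : Finset α) (hY : Y ⊆ X)
    (hy : ∀ a ∈ Y, ∀ i, |x a i - y i| ≤ ρ) : (Y.card : ℝ) ≤ M * (5 * ρ) ^ Fintype.card D := by
  classical
  have hM : 0 ≤ M := le_trans (Nat.cast_nonneg _) (h y)
  set φ : α → D → ℤ := fun a i => round (x a i - y i) with hφ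
  have h1 : ∀ a ∈ Y, φ a ∈ box D ρ := by
    intro a ha
    refine mem_box fun i => ?_
    have h2 := abs_sub_round (x a i - y i)
    have h3 := hy a ha i
    simp only [hφ]
    rw [abs_le] at h2 h3
    rw [abs_lt]
    constructor <;> linarith [h2.1, h2.2, h3.1, h3.2]
  rw [card_eq_sum_card_fiberwise h1]
  push_cast
  have h2 : ∀ z ∈ box D ρ, ((Y.filter fun a => φ a = z).card : ℝ) ≤ M := by
    intro z _
    refine le_trans ?_ (h fun i => y i + z i)
    norm_cast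
    refine card_le_card fun a ha => ?_
    rw [mem_filter] at ha ⊢
    refine ⟨hY ha.1, fun i => ?_⟩
    have h2 := abs_sub_round (x a i - y i)
    have h3 : round (x a i - y i) = z i := congrFun ha.2 i
    rw [h3] at h2
    have : x a i - (y i + z i) = x a i - y i - z i := by ring
    rw [this]
    linarith
  refine (sum_le_card_nsmul _ _ _ h2).trans ?_
  rw [nsmul_eq_mul, mul_comm]
  exact mul_le_mul_of_nonneg_left (card_box hρ) hM

/-- snapping -/
noncomputable def snap (σ : ℝ) (y : D → ℝ) : D → ℤ := fun i => round (y i / σ)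

omit [Fintype D] [DecidableEq D] in
lemma snap_near {σ : ℝ} (hσ : 0 < σ) (y : D → ℝ) (i : D) :
    |pt σ (snap σ y) i - y i| ≤ σ / 2 := by
  have h := abs_sub_round (y i / σ)
  have e : pt σ (snap σ y) i - y i = -(σ * (y i / σ - round (y i / σ))) := by
    simp only [pt, snap]
    field_simp
    ring
  rw [e, abs_neg, abs_mul, abs_of_pos hσ]
  nlinarith

/-- **Transversal multilinear Kakeya**, after the change of variables `G`. -/
theorem transversal {k : ℕ} (hk : Fintype.card D = k + 1) (hk1 : 1 ≤ k) {ι α : Type*}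
    {N : ℕ} (hN : 1 ≤ N) (m : ℕ) (G : (D → ℝ) → (D → ℝ)) {L B : ℝ} (hL : 1 ≤ L) (hB : 1 ≤ B)
    (hadd : ∀ x y : D → ℝ, ∀ i, G x i - G y i = G (fun i => x i - y i) i)
    (hforw : ∀ (y : D → ℝ) (t : ℝ), (∀ i, |y i| ≤ t) → ∀ i, |G y i| ≤ L * t)
    (hback : ∀ (y : D → ℝ) (t : ℝ), (∀ i, |G y i| ≤ t) → ∀ i, |y i| ≤ B * t)
    (s : D → Finset ι) (S : ι → Set (D → ℝ)) (w : ι → ℝ)
    (hw : ∀ j, ∀ l ∈ s j, 0 ≤ w l)
    (hax : ∀ j, ∀ l ∈ s j, AxS N j (G '' S l))
    {r R M : ℝ} (hr : 1 ≤ r) (hR : 1 ≤ R) (hRm : R < (N : ℝ) ^ m)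
    (X : Finset α) (x : α → D → ℝ) (hX : ∀ a ∈ X, ∀ i, |x a i| ≤ R) (hM : Mult X x M)
    (A : α → D → Finset ι) (hA : ∀ a ∈ X, ∀ j, A a j ⊆ s j)
    (hnear : ∀ a ∈ X, ∀ j, ∀ l ∈ A a j, Nr (S l) (x a) r) :
    ∑ a ∈ X, ∏ j, (∑ l ∈ A a j, w l) ^ ((1 : ℝ) / k) ≤
      M * (10 * B * L * r) ^ (k + 1) * (2 ^ (k + 1) * (11 ^ (k + 1)) ^ m *
        ∏ j, (∑ l ∈ s j, w l) ^ ((1 : ℝ) / k)) := by
  classical
  have hM0 : 0 ≤ M := le_trans (Nat.cast_nonneg _) (hM 0)
  set σ : ℝ := 2 * L * r with hσdef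
  have hLr : 1 ≤ L * r := by nlinarith
  have hσ1 : 1 ≤ σ := by rw [hσdef]; nlinarith
  have hσ0 : 0 < σ := by linarith
  set S' : ι → Set (D → ℝ) := fun l => G '' S l with hS'
  set sn : α → D → ℤ := fun a => snap σ (G (x a)) with hsn
  have hn : ∀ a ∈ X, ∀ j, ∀ l ∈ A a j, Nr (S' l) (pt σ (sn a)) σ := by
    intro a ha j l hl
    obtain ⟨p, hp, hpr⟩ := hnear a ha j l hl
    refine ⟨G p, ⟨p, hp, rfl⟩, fun i => ?_⟩
    have h1 := snap_near hσ0 (G (x a)) i
    have h2 : |G (x a) i - G p i| ≤ L * r := by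
      rw [hadd]
      exact hforw _ r hpr i
    have h3 : pt σ (sn a) i - G p i = (pt σ (sn a) i - G (x a) i) + (G (x a) i - G p i) := by ring
    rw [h3]
    refine (abs_add_le _ _).trans ?_
    have : σ / 2 = L * r := by rw [hσdef]; ring
    linarith
  have hWk : ∀ a ∈ X, ∀ j, ∑ l ∈ A a j, w l ≤ W (s j) S' w σ (sn a) := by
    intro a ha j
    unfold W
    have h1 : ∑ l ∈ A a j, w l = ∑ l ∈ A a j, (if Nr (S' l) (pt σ (sn a)) σ then w l else 0) := by
      refine Finset.sum_congr rfl fun l hl => ?_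
      rw [if_pos (hn a ha j l hl)]
    rw [h1]
    refine Finset.sum_le_sum_of_subset_of_nonneg (hA a ha j) ?_
    intro l hl _
    split_ifs
    · exact hw j l hl
    · exact le_rfl
  have hA0 : ∀ a ∈ X, ∀ j, 0 ≤ ∑ l ∈ A a j, w l := fun a ha j =>
    Finset.sum_nonneg fun l hl => hw j l (hA a ha j hl)
  have e1 : ∀ a ∈ X, ∏ j, (∑ l ∈ A a j, w l) ^ ((1 : ℝ) / k) ≤ PK k s S' w σ (sn a) := by
    intro a ha
    exact prod_le_prod (fun j _ => Real.rpow_nonneg (hA0 a ha j) _) fun j _ =>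
      Real.rpow_le_rpow (hA0 a ha j) (hWk a ha j) (by positivity)
  refine (Finset.sum_le_sum e1).trans ?_
  have e2 : ∑ a ∈ X, PK k s S' w σ (sn a) =
      ∑ κ ∈ X.image sn, ∑ a ∈ X.filter (fun a => sn a = κ), PK k s S' w σ (sn a) := by
    rw [Finset.sum_fiberwise_of_maps_to]
    intro a ha
    exact Finset.mem_image_of_mem _ ha
  rw [e2]
  have e3 : ∀ κ ∈ X.image sn, ∑ a ∈ X.filter (fun a => sn a = κ),
        PK k s S' w σ (sn a) ≤ M * (10 * B * L * r) ^ (k + 1) * PK k s S' w σ κ := by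
    intro κ hκ
    have h1 : ∑ a ∈ X.filter (fun a => sn a = κ), PK k s S' w σ (sn a) =
        ((X.filter (fun a => sn a = κ)).card : ℝ) * PK k s S' w σ κ := by
      rw [← nsmul_eq_mul, ← Finset.sum_const]
      refine Finset.sum_congr rfl fun a ha => ?_
      rw [(Finset.mem_filter.mp ha).2]
    rw [h1]
    refine mul_le_mul_of_nonneg_right ?_ (PK_nonneg k s S' w hw σ κ)
    obtain ⟨a0, ha0, rfl⟩ := mem_image.1 hκ
    have h2 := hM.card_le (ρ := B * σ) (by nlinarith) (x a0) (X.filter (fun a => sn a = sn a0))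
      (filter_subset _ _) (by
        intro a ha
        refine hback (fun i => x a i - x a0 i) σ fun i => ?_
        rw [← hadd]
        have g1 := snap_near hσ0 (G (x a)) i
        have g2 := snap_near hσ0 (G (x a0)) i
        have g3 : snap σ (G (x a)) = snap σ (G (x a0)) := (mem_filter.1 ha).2
        rw [g3] at g1
        rw [abs_le] at g1 g2 ⊢
        constructor <;> linarith [g1.1, g1.2, g2.1, g2.2])
    rw [hk] at h2
    refine h2.trans (le_of_eq ?_)
    rw [hσdef]; ring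
  refine (Finset.sum_le_sum e3).trans ?_
  rw [← Finset.mul_sum]
  refine mul_le_mul_of_nonneg_left ?_ (by positivity)
  refine axial hk hk1 s S' w hw hN hax m hσ0 _ ?_
  intro κ hκ i
  obtain ⟨a, ha, rfl⟩ := Finset.mem_image.mp hκ
  have h1 : |G (x a) i| ≤ L * R := hforw (x a) R (hX a ha) i
  have h2 : |(sn a i : ℝ)| ≤ R := by
    have h3 : (sn a i : ℝ) = pt σ (sn a) i / σ := by
      simp only [pt]; field_simp
    have h4 := snap_near hσ0 (G (x a)) i
    have h5 : |pt σ (sn a) i| ≤ L * R + σ / 2 := by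
      have : pt σ (sn a) i = (pt σ (sn a) i - G (x a) i) + G (x a) i := by ring
      rw [this]
      refine (abs_add_le _ _).trans ?_
      linarith
    rw [h3, abs_div, abs_of_pos hσ0, div_le_iff₀ hσ0]
    refine h5.trans ?_
    rw [hσdef]
    have h6 : L * R ≤ L * r * R := by
      have : L * R * 1 ≤ L * R * r := mul_le_mul_of_nonneg_left hr (by positivity)
      linarith
    nlinarith
  have h7 : |(sn a i : ℝ)| < (N : ℝ) ^ m := lt_of_le_of_lt h2 hRm
  rw [abs_lt] at h7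
  constructor
  · have := h7.1.le
    exact_mod_cast this
  · exact_mod_cast h7.2

omit [DecidableEq D] in
lemma mulVec_bound (A : Matrix D D ℝ) {a d : ℝ} (hA : ∀ i j, |A i j| ≤ a) {v : D → ℝ}
    (hv : ∀ i, |v i| ≤ d) (i : D) : |A.mulVec v i| ≤ Fintype.card D * a * d := by
  unfold Matrix.mulVec dotProduct
  refine (abs_sum_le_sum_abs _ _).trans ?_
  have : ∀ j ∈ (univ : Finset D), |A i j * v j| ≤ a * d := fun j _ => by
    rw [abs_mul]
    exact mul_le_mul (hA i j) (hv j) (abs_nonneg _) ((abs_nonneg _).trans (hA i j))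
  refine (sum_le_card_nsmul _ _ _ this).trans (le_of_eq ?_)
  rw [nsmul_eq_mul, card_univ, mul_assoc]

lemma inv_entry (A : Matrix D D ℝ) (hA : ∀ i j, |A i j| ≤ 1) {θ : ℝ} (hθ : 0 < θ)
    (hd : θ ≤ |A.det|) (i j : D) : |A⁻¹ i j| ≤ (Fintype.card D).factorial / θ := by
  have h1 : |A.adjugate i j| ≤ (Fintype.card D).factorial := by
    rw [Matrix.adjugate_apply]
    have := Matrix.det_le (A := A.updateRow j (Pi.single i 1)) (abv := AbsoluteValue.abs)
      (x := (1 : ℝ)) (by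
        intro a b
        rw [AbsoluteValue.abs_apply, Matrix.updateRow_apply]
        split_ifs
        · rw [Pi.single_apply]; split_ifs <;> simp
        · exact hA a b)
    simpa using this
  rw [Matrix.inv_def, Matrix.smul_apply, Ring.inverse_eq_inv', smul_eq_mul, abs_mul, abs_inv,
    mul_comm, ← div_eq_mul_inv]
  exact div_le_div₀ (by positivity) h1 hθ hd

end Crest.Agent.N76.MK
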